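import Mathlib

set_option linter.unusedSectionVars false

/-! The corner embedding of matrices over `K[G]` into `K[G × Γ]`, and the regular representation. -/

namespace Vale.Agent.P194

open MonoidAlgebra Finset

section Corner

variable {K : Type*} [Field K] {G Γ : Type*} [Group G] [Group Γ]

variable (K G Γ) in
/-- the inclusion of `K[G]`. -/
noncomputable def alphaG : MonoidAlgebra K G →+* MonoidAlgebra K (G × Γ) :=
  mapDomainRingHom K (MonoidHom.inl G Γ)

variable (K G Γ) in
/-- the inclusion of `K[Γ]`. -/
noncomputable def betaG : MonoidAlgebra K Γ →+* MonoidAlgebra K (G × Γ) :=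
  mapDomainRingHom K (MonoidHom.inr G Γ)

lemma alpha_single (g : G) (r : K) :
    alphaG K G Γ (single g r) = single (g, (1 : Γ)) r := by
  simp [alphaG]

lemma beta_single (γ : Γ) (r : K) :
    betaG K G Γ (single γ r) = single ((1 : G), γ) r := by
  simp [betaG]

lemma alpha_comm_beta (x : MonoidAlgebra K G) (y : MonoidAlgebra K Γ) :
    alphaG K G Γ x * betaG K G Γ y = betaG K G Γ y * alphaG K G Γ x := by
  induction x using MonoidAlgebra.induction_linear with
  | zero => simp
  | add x x' hx hx' => simp only [map_add, mul_add, add_mul, hx, hx']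
  | single g r =>
    induction y using MonoidAlgebra.induction_linear with
    | zero => simp
    | add y y' hy hy' => simp only [map_add, mul_add, add_mul, hy, hy']
    | single γ s =>
      simp [alpha_single, beta_single, single_mul_single, mul_comm]

lemma coeff_alpha_mul_beta [DecidableEq G] [DecidableEq Γ] (x : MonoidAlgebra K G)
    (y : MonoidAlgebra K Γ) (g : G) (γ : Γ) :
    (alphaG K G Γ x * betaG K G Γ y).coeff (g, γ) = x.coeff g * y.coeff γ := by
  induction x using MonoidAlgebra.induction_linear with
  | zero => simp
  | add x x' hx hx' => simp [add_mul, hx, hx']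
  | single g' r =>
    induction y using MonoidAlgebra.induction_linear with
    | zero => simp
    | add y y' hy hy' => simp [mul_add, hy, hy']
    | single γ' s =>
      simp only [alpha_single, beta_single, single_mul_single, coeff_single]
      simp only [Prod.mk_mul_mk, mul_one, one_mul, Finsupp.single_apply, Prod.mk.injEq]
      split_ifs <;> simp_all

variable {ι : Type*} [Fintype ι] [DecidableEq ι]

/-- The corner map. -/
noncomputable def corner (e : ι → ι → MonoidAlgebra K Γ) (A : Matrix ι ι (MonoidAlgebra K G)) :
    MonoidAlgebra K (G × Γ) :=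
  ∑ i, ∑ j, alphaG K G Γ (A i j) * betaG K G Γ (e i j)

section
variable (e : ι → ι → MonoidAlgebra K Γ)
  (he : ∀ i j k l, e i j * e k l = if j = k then e i l else 0)
include he

lemma corner_term (A B : Matrix ι ι (MonoidAlgebra K G)) (i j k l : ι) :
    alphaG K G Γ (A i j) * betaG K G Γ (e i j) * (alphaG K G Γ (B k l) * betaG K G Γ (e k l)) =
      if j = k then alphaG K G Γ (A i j * B k l) * betaG K G Γ (e i l) else 0 := by
  have h1 : alphaG K G Γ (A i j) * betaG K G Γ (e i j) *
      (alphaG K G Γ (B k l) * betaG K G Γ (e k l)) =
      alphaG K G Γ (A i j) * (betaG K G Γ (e i j) * alphaG K G Γ (B k l)) *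
        betaG K G Γ (e k l) := by
    simp only [mul_assoc]
  rw [h1, ← alpha_comm_beta (B k l) (e i j)]
  have h2 : alphaG K G Γ (A i j) * (alphaG K G Γ (B k l) * betaG K G Γ (e i j)) *
        betaG K G Γ (e k l) =
      alphaG K G Γ (A i j * B k l) * betaG K G Γ (e i j * e k l) := by
    simp only [map_mul, mul_assoc]
  rw [h2, he]
  split_ifs <;> simp

lemma corner_mul (A B : Matrix ι ι (MonoidAlgebra K G)) :
    corner e A * corner e B = corner e (A * B) := by
  unfold corner
  rw [Finset.sum_mul]
  refine Finset.sum_congr rfl fun i _ => ?_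
  calc _ = ∑ j, ∑ k, ∑ l, (alphaG K G Γ (A i j) * betaG K G Γ (e i j)) *
        (alphaG K G Γ (B k l) * betaG K G Γ (e k l)) := by
        rw [Finset.sum_mul]
        refine Finset.sum_congr rfl fun j _ => ?_
        rw [Finset.mul_sum]
        refine Finset.sum_congr rfl fun k _ => ?_
        rw [Finset.mul_sum]
    _ = ∑ j, ∑ l, alphaG K G Γ (A i j * B j l) * betaG K G Γ (e i l) := by
        refine Finset.sum_congr rfl fun j _ => ?_
        simp only [corner_term e he]
        rw [Finset.sum_eq_single j]
        · simp
        · intro k _ hk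
          simp [Ne.symm hk]
        · simp
    _ = _ := by
        rw [Finset.sum_comm]
        simp only [Matrix.mul_apply, map_sum, Finset.sum_mul]

lemma corner_one_mul (A : Matrix ι ι (MonoidAlgebra K G)) :
    corner e 1 * corner e A = corner e A := by
  rw [corner_mul e he, one_mul]

lemma corner_mul_one (A : Matrix ι ι (MonoidAlgebra K G)) :
    corner e A * corner e 1 = corner e A := by
  rw [corner_mul e he, mul_one]

omit he in
lemma corner_sub (A B : Matrix ι ι (MonoidAlgebra K G)) :
    corner e (A - B) = corner e A - corner e B := by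
  unfold corner
  simp only [Matrix.sub_apply, map_sub, sub_mul, Finset.sum_sub_distrib]

lemma corner_extract [DecidableEq G] [DecidableEq Γ] (A : Matrix ι ι (MonoidAlgebra K G)) (i j : ι) :
    betaG K G Γ (e i i) * corner e A * betaG K G Γ (e j j) =
      alphaG K G Γ (A i j) * betaG K G Γ (e i j) := by
  unfold corner
  rw [Finset.mul_sum, Finset.sum_mul, Finset.sum_eq_single i]
  · rw [Finset.mul_sum, Finset.sum_mul, Finset.sum_eq_single j]
    · have : betaG K G Γ (e i i) * (alphaG K G Γ (A i j) * betaG K G Γ (e i j)) *
          betaG K G Γ (e j j) = alphaG K G Γ (A i j) *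
            betaG K G Γ (e i i * e i j * e j j) := by
        simp only [map_mul]
        rw [← mul_assoc, ← alpha_comm_beta (A i j) (e i i)]
        simp only [mul_assoc]
      rw [this, he i i i j, if_pos rfl, he i j j j, if_pos rfl]
    · intro l _ hl
      have : betaG K G Γ (e i i) * (alphaG K G Γ (A i l) * betaG K G Γ (e i l)) *
          betaG K G Γ (e j j) = alphaG K G Γ (A i l) *
            betaG K G Γ (e i i * e i l * e j j) := by
        simp only [map_mul]
        rw [← mul_assoc, ← alpha_comm_beta (A i l) (e i i)]
        simp only [mul_assoc]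
      rw [this, he i i i l, if_pos rfl, he i l j j, if_neg hl, map_zero, mul_zero]
    · simp
  · intro k _ hk
    rw [Finset.mul_sum, Finset.sum_mul]
    refine Finset.sum_eq_zero fun l _ => ?_
    have : betaG K G Γ (e i i) * (alphaG K G Γ (A k l) * betaG K G Γ (e k l)) *
          betaG K G Γ (e j j) = alphaG K G Γ (A k l) *
            betaG K G Γ (e i i * e k l * e j j) := by
      simp only [map_mul]
      rw [← mul_assoc, ← alpha_comm_beta (A k l) (e i i)]
      simp only [mul_assoc]
    rw [this, he i i k l, if_neg (Ne.symm hk), zero_mul, map_zero, mul_zero]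
  · simp

lemma corner_injective_aux [DecidableEq G] [DecidableEq Γ] (hne : ∀ i, e i i ≠ 0)
    (A : Matrix ι ι (MonoidAlgebra K G)) (h0 : corner e A = 0) : A = 0 := by
  ext i j g
  have h1 := corner_extract e he A i j
  rw [h0, mul_zero, zero_mul] at h1
  have h2 : alphaG K G Γ (A i j) * betaG K G Γ (e i i) = 0 := by
    have := congrArg (fun x => x * betaG K G Γ (e j i)) h1
    simp only [zero_mul, mul_assoc, ← map_mul, he] at this
    simpa using this.symm
  obtain ⟨γ, hγ⟩ : ∃ γ, (e i i).coeff γ ≠ 0 := by
    by_contra hcon
    apply hne i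
    ext x
    by_contra hx
    exact hcon ⟨x, hx⟩
  have h3 := coeff_alpha_mul_beta (A i j) (e i i) g γ
  rw [h2] at h3
  simp only [coeff_zero, Finsupp.coe_zero, Pi.zero_apply] at h3
  have := (mul_eq_zero.mp h3.symm).resolve_right hγ
  simpa using this

theorem matrix_df_of_df [IsDedekindFiniteMonoid (MonoidAlgebra K (G × Γ))]
    (hne : ∀ i, e i i ≠ 0) : IsDedekindFiniteMonoid (Matrix ι ι (MonoidAlgebra K G)) := by
  classical
  refine ⟨fun {A B} hAB => ?_⟩
  set E := corner e (1 : Matrix ι ι (MonoidAlgebra K G)) with hE
  have hEE : E * E = E := corner_one_mul e he 1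
  have hAE : corner e A * E = corner e A := corner_mul_one e he A
  have hEA : E * corner e A = corner e A := corner_one_mul e he A
  have hBE : corner e B * E = corner e B := corner_mul_one e he B
  have hEB : E * corner e B = corner e B := corner_one_mul e he B
  have hxy : (corner e A + (1 - E)) * (corner e B + (1 - E)) = 1 := by
    have h1 : corner e A * corner e B = E := by rw [corner_mul e he, hAB]
    calc _ = corner e A * corner e B + (corner e A - corner e A * E) +
          (corner e B - E * corner e B) + (1 - E - E + E * E) := by noncomm_ring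
      _ = 1 := by rw [h1, hAE, hEB, hEE]; abel
  have hyx := mul_eq_one_symm hxy
  have h2 : corner e (B * A) = E := by
    rw [← corner_mul e he]
    have : (corner e B + (1 - E)) * (corner e A + (1 - E)) =
        corner e B * corner e A + (corner e B - corner e B * E) +
          (corner e A - E * corner e A) + (1 - E - E + E * E) := by noncomm_ring
    rw [this, hBE, hEA, hEE] at hyx
    simp only [sub_self, add_zero] at hyx
    have h4 : (1 : MonoidAlgebra K (G × Γ)) - E - E + E = 1 - E := by abel
    rw [h4] at hyx
    calc corner e B * corner e A = (corner e B * corner e A + (1 - E)) - (1 - E) := by abel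
      _ = 1 - (1 - E) := by rw [hyx]
      _ = E := by abel
  have h3 : B * A - 1 = 0 := by
    apply corner_injective_aux e he hne
    rw [corner_sub, h2, sub_self]
  exact sub_eq_zero.mp h3

end

end Corner

end Vale.Agent.P194
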