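import Vale.Agent.P194.Reps

set_option linter.unusedSectionVars false

/-! Reduction from an arbitrary extension field to finite extensions (Zariski lemma). -/

namespace Vale.Agent.P194

open MonoidAlgebra Finset

universe u v w

/-- A nonzero element of a finite type domain over a field survives in some finite extension. -/
lemma exists_finite_residue (F : Type u) [Field F] (R : Type v) [CommRing R] [IsDomain R]
    [Algebra F R] [Algebra.FiniteType F R] (c : R) (hc : c ≠ 0) :
    ∃ (E : Type v) (_ : Field E) (_ : Algebra F E) (_ : Module.Finite F E) (π : R →+* E),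
      π c ≠ 0 := by
  classical
  have hJ : IsJacobsonRing R := isJacobsonRing_of_finiteType (A := F)
  have hrad : (⊥ : Ideal R).jacobson = ⊥ := hJ.out Ideal.isRadical_bot
  have hc' : c ∉ (⊥ : Ideal R).jacobson := by
    rw [hrad]
    simpa using hc
  rw [Ideal.jacobson, Submodule.mem_sInf] at hc'
  push Not at hc'
  obtain ⟨J, ⟨-, hJmax⟩, hcJ⟩ := hc'
  letI : Field (R ⧸ J) := Ideal.Quotient.field J
  have : Algebra.FiniteType F (R ⧸ J) :=
    Algebra.FiniteType.of_surjective (Ideal.Quotient.mkₐ F J) (Ideal.Quotient.mkₐ_surjective F J)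
  have : Module.Finite F (R ⧸ J) := finite_of_finite_type_of_isJacobsonRing F (R ⧸ J)
  refine ⟨R ⧸ J, inferInstance, inferInstance, this, Ideal.Quotient.mk J, ?_⟩
  intro h0
  exact hcJ (Ideal.Quotient.eq_zero_iff_mem.mp h0)

theorem stablyFinite_ext_of_finite (F : Type*) (E : Type*) [Field F] [Field E] [Algebra F E]
    [Module.Finite F E] (G : Type*) [Group G] [IsStablyFiniteRing (MonoidAlgebra F G)] :
    IsStablyFiniteRing (MonoidAlgebra E G) := by
  classical
  let b := Module.finBasis F E
  exact IsStablyFiniteRing.of_injective (extHom b) (extHom_injective b)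

lemma exists_lift_coeff {F K : Type*} [Field F] [Field K] [Algebra F K] {G : Type*} [Group G]
    (R : Subalgebra F K) (x : MonoidAlgebra K G) (h : ∀ g, x.coeff g ∈ R) :
    ∃ x' : MonoidAlgebra R G, mapRingHom G ((R.val : R →ₐ[F] K) : R →+* K) x' = x := by
  classical
  refine ⟨ofCoeff (Finsupp.onFinset x.coeff.support (fun g => ⟨x.coeff g, h g⟩) ?_), ?_⟩
  · intro g hg
    simp only [Finsupp.mem_support_iff]
    intro h0
    apply hg
    ext
    simpa using h0
  · ext g
    simp

lemma mapRingHom_injective' {R S : Type*} [Semiring R] [Semiring S] {G : Type*} [Group G]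
    (f : R →+* S) (hf : Function.Injective f) :
    Function.Injective (mapRingHom G f) := by
  intro x y h
  ext g
  apply hf
  have := congrArg (fun z => z.coeff g) h
  simpa using this

/-- Stable finiteness passes from a field to any extension field. -/
theorem stablyFinite_of_base (F : Type*) (K : Type*) [Field F] [Field K] [Algebra F K]
    (G : Type*) [Group G] [IsStablyFiniteRing (MonoidAlgebra F G)] :
    IsStablyFiniteRing (MonoidAlgebra K G) := by
  classical
  refine ⟨fun n => ⟨fun {A B} hAB => ?_⟩⟩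
  let S : Finset K := univ.biUnion fun i => univ.biUnion fun j =>
    ((A i j).coeff.frange ∪ (B i j).coeff.frange)
  let R : Subalgebra F K := Algebra.adjoin F (S : Set K)
  have hFT : Algebra.FiniteType F R :=
    (Subalgebra.fg_iff_finiteType R).mp (Subalgebra.fg_adjoin_finset S)
  have hmem : ∀ (x : MonoidAlgebra K G), (∀ y ∈ x.coeff.frange, y ∈ S) → ∀ g, x.coeff g ∈ R := by
    intro x hx g
    by_cases h0 : x.coeff g = 0
    · rw [h0]; exact R.zero_mem
    · exact Algebra.subset_adjoin (hx _ (Finsupp.mem_frange.mpr ⟨h0, g, rfl⟩))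
  have hA : ∀ i j g, (A i j).coeff g ∈ R := fun i j => hmem _ (fun y hy => by
    simp only [S, Finset.mem_biUnion, Finset.mem_union]
    exact ⟨i, mem_univ _, j, mem_univ _, Or.inl hy⟩)
  have hB : ∀ i j g, (B i j).coeff g ∈ R := fun i j => hmem _ (fun y hy => by
    simp only [S, Finset.mem_biUnion, Finset.mem_union]
    exact ⟨i, mem_univ _, j, mem_univ _, Or.inr hy⟩)
  choose A' hA' using fun i j => exists_lift_coeff R (A i j) (hA i j)
  choose B' hB' using fun i j => exists_lift_coeff R (B i j) (hB i j)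
  let φ : MonoidAlgebra R G →+* MonoidAlgebra K G := mapRingHom G ((R.val : R →ₐ[F] K) : R →+* K)
  have hφ : Function.Injective φ := mapRingHom_injective' _ Subtype.val_injective
  let A₁ : Matrix (Fin n) (Fin n) (MonoidAlgebra R G) := Matrix.of A'
  let B₁ : Matrix (Fin n) (Fin n) (MonoidAlgebra R G) := Matrix.of B'
  have hA₁ : φ.mapMatrix A₁ = A := by ext1 i j; exact hA' i j
  have hB₁ : φ.mapMatrix B₁ = B := by ext1 i j; exact hB' i j
  have hinj : Function.Injective (φ.mapMatrix : Matrix (Fin n) (Fin n) (MonoidAlgebra R G) → _) :=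
    Matrix.map_injective hφ
  have hAB₁ : A₁ * B₁ = 1 := by
    apply hinj
    rw [map_mul, hA₁, hB₁, hAB, map_one]
  by_contra hne
  have hBA₁ : B₁ * A₁ ≠ 1 := by
    intro h
    apply hne
    rw [← hA₁, ← hB₁, ← map_mul, h, map_one]
  obtain ⟨i, j, hij⟩ : ∃ i j, (B₁ * A₁) i j ≠ (1 : Matrix (Fin n) (Fin n) (MonoidAlgebra R G)) i j := by
    by_contra hcon
    push Not at hcon
    exact hBA₁ (Matrix.ext hcon)
  obtain ⟨g, hg⟩ : ∃ g, ((B₁ * A₁) i j).coeff g ≠
      ((1 : Matrix (Fin n) (Fin n) (MonoidAlgebra R G)) i j).coeff g := by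
    by_contra hcon
    push Not at hcon
    apply hij
    ext g
    exact congrArg Subtype.val (hcon g)
  obtain ⟨E, _, _, _, π, hπ⟩ := exists_finite_residue F R
    (((B₁ * A₁) i j).coeff g - ((1 : Matrix (Fin n) (Fin n) (MonoidAlgebra R G)) i j).coeff g)
    (sub_ne_zero.mpr hg)
  have hSF : IsStablyFiniteRing (MonoidAlgebra E G) := stablyFinite_ext_of_finite F E G
  let ψ : MonoidAlgebra R G →+* MonoidAlgebra E G := mapRingHom G π
  have h1 : ψ.mapMatrix A₁ * ψ.mapMatrix B₁ = 1 := by
    rw [← map_mul, hAB₁, map_one]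
  have h2 : ψ.mapMatrix B₁ * ψ.mapMatrix A₁ = 1 := mul_eq_one_symm h1
  rw [← map_mul] at h2
  have h3 : ψ.mapMatrix (B₁ * A₁) = ψ.mapMatrix 1 := by rw [h2, map_one]
  have h4 : ψ ((B₁ * A₁) i j) = ψ ((1 : Matrix (Fin n) (Fin n) (MonoidAlgebra R G)) i j) :=
    congrFun (congrFun h3 i) j
  have h5 := congrArg (fun z => z.coeff g) h4
  simp only [ψ, coeff_mapRingHom] at h5
  apply hπ
  rw [map_sub, h5, sub_self]

end Vale.Agent.P194
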