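import Vale.Agent.P194.MatrixUnits
import Vale.Agent.P194.Corner
import Vale.Agent.P194.Reduction

set_option linter.unusedSectionVars false

/-! Assembly of the reductions for stable finiteness of group algebras. -/

namespace Vale.Agent.P194

open MonoidAlgebra Finset

universe u v w

/-- Stable finiteness of `F[G]` and `K[G]` agree for a field extension `K / F`. -/
theorem stablyFinite_iff_of_algebra (F : Type u) (K : Type v) [Field F] [Field K] [Algebra F K]
    (G : Type w) [Group G] :
    IsStablyFiniteRing (MonoidAlgebra F G) ↔ IsStablyFiniteRing (MonoidAlgebra K G) := by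
  constructor
  · intro h
    exact stablyFinite_of_base F K G
  · intro h
    exact IsStablyFiniteRing.of_injective (mapRingHom G (algebraMap F K))
      (mapRingHom_injective' _ (algebraMap F K).injective)

lemma matrix_df_of_prod_aux (K : Type u) [Field K] (G : Type w) [Group G]
    (M : Type) [CommGroup M] [Fintype M] [Nontrivial M] (hM : (Fintype.card M : K) ≠ 0)
    (hyp : ∀ (Γ : Type) [Group Γ] [Finite Γ], IsDedekindFiniteMonoid (MonoidAlgebra K (G × Γ)))
    (n : ℕ) : IsDedekindFiniteMonoid (Matrix (Fin (n + 1)) (Fin (n + 1)) (MonoidAlgebra K G)) := by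
  classical
  let Q : Type := Multiplicative (ZMod (n + 1))
  have hcard : Fintype.card (Fin (n + 1)) = Fintype.card Q := by
    simp [Q, ZMod.card]
  let θ : Fin (n + 1) ≃ Q := Fintype.equivOfCardEq hcard
  let Γ : Type := RegularWreathProduct M Q
  haveI : IsDedekindFiniteMonoid (MonoidAlgebra K (G × Γ)) := hyp Γ
  let e : Fin (n + 1) → Fin (n + 1) → MonoidAlgebra K Γ := fun i j => unitE K M Q (θ i) (θ j)
  refine matrix_df_of_df (Γ := Γ) e ?_ ?_
  · intro i j k l
    simp only [e, θ.apply_eq_iff_eq.symm]
    exact unitE_mul Q hM _ _ _ _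
  · intro i
    exact unitE_self_ne_zero Q hM _

/-- `K[G]` is stably finite iff all `K[G × Γ]` with `Γ` finite are directly finite. -/
theorem stablyFinite_iff_prod (K : Type u) [Field K] (G : Type w) [Group G] :
    IsStablyFiniteRing (MonoidAlgebra K G) ↔
      ∀ (Γ : Type) [Group Γ] [Finite Γ], IsDedekindFiniteMonoid (MonoidAlgebra K (G × Γ)) := by
  constructor
  · intro h Γ _ _
    classical
    haveI := Fintype.ofFinite Γ
    exact df_prod_of_stablyFinite
  · intro hyp
    refine ⟨fun n => ?_⟩
    cases n with
    | zero => exact ⟨fun {A B} _ => Subsingleton.elim _ _⟩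
    | succ n =>
      by_cases h2 : (2 : K) = 0
      · have h3 : (3 : K) ≠ 0 := by
          have : (3 : K) = 2 + 1 := by norm_num
          rw [this, h2, zero_add]
          exact one_ne_zero
        haveI : Fact (1 < 3) := ⟨by norm_num⟩
        exact matrix_df_of_prod_aux K G (Multiplicative (ZMod 3))
          (by simpa [ZMod.card] using h3) hyp n
      · exact matrix_df_of_prod_aux K G (Multiplicative (ZMod 2))
          (by simpa [ZMod.card] using h2) hyp n

/-- Direct finiteness over `ZMod p` for all groups gives stable finiteness over all fields of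
characteristic `p` for all groups. -/
theorem stablyFinite_of_prime_field (p : ℕ) [Fact p.Prime]
    (hyp : ∀ (H : Type w) [Group H], IsDedekindFiniteMonoid (MonoidAlgebra (ZMod p) H))
    (K : Type u) [Field K] [CharP K p] (G : Type w) [Group G] :
    IsStablyFiniteRing (MonoidAlgebra K G) := by
  letI : Algebra (ZMod p) K := ZMod.algebra K p
  have h1 : IsStablyFiniteRing (MonoidAlgebra (ZMod p) G) :=
    (stablyFinite_iff_prod (ZMod p) G).mpr fun Γ _ _ => hyp (G × Γ)
  exact (stablyFinite_iff_of_algebra (ZMod p) K G).mp h1

end Vale.Agent.P194
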