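import Mathlib

set_option linter.unusedSectionVars false

/-! Explicit matrix units in the group algebra of a finite wreath product. -/

namespace Vale.Agent.P194

open MonoidAlgebra Finset

section MatrixUnits

variable (K : Type*) [Field K] (M Q : Type) [CommGroup M] [Fintype M] [Group Q] [Fintype Q]
  [DecidableEq Q]

/-- The averaging idempotent of `K[M]`. -/
noncomputable def zBase : MonoidAlgebra K M := ∑ m : M, single m ((Fintype.card M : K)⁻¹)

variable {K M} in
lemma zBase_mul_self (h : (Fintype.card M : K) ≠ 0) :
    zBase K M * zBase K M = zBase K M := by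
  classical
  unfold zBase
  rw [Finset.sum_mul_sum]
  have key : ∀ m : M, (∑ m' : M, single m ((Fintype.card M : K)⁻¹) *
      single m' ((Fintype.card M : K)⁻¹)) =
      ∑ m' : M, (single m' ((Fintype.card M : K)⁻¹ * (Fintype.card M : K)⁻¹) :
        MonoidAlgebra K M) := by
    intro m
    simp only [single_mul_single]
    exact Equiv.sum_comp (Equiv.mulLeft m)
      (fun x => (single x ((Fintype.card M : K)⁻¹ * (Fintype.card M : K)⁻¹) :
        MonoidAlgebra K M))
  simp only [key, Finset.sum_const, Finset.card_univ]
  rw [Finset.smul_sum]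
  refine Finset.sum_congr rfl fun m _ => ?_
  rw [smul_single, nsmul_eq_mul]
  congr 1
  field_simp

/-- coordinate inclusion -/
noncomputable def sg (i : Q) : M →* (Q → M) := MonoidHom.mulSingle (fun _ => M) i

/-- The idempotent at coordinate `i` of `K[Q → M]`. -/
noncomputable def zCoord (i : Q) : MonoidAlgebra K (Q → M) :=
  mapDomainRingHom K (sg M Q i) (zBase K M)

variable {K M} in
lemma zCoord_mul_self (h : (Fintype.card M : K) ≠ 0) (i : Q) :
    zCoord K M Q i * zCoord K M Q i = zCoord K M Q i := by
  unfold zCoord
  rw [← map_mul, zBase_mul_self h]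

/-- factors of the idempotent `eps i` -/
noncomputable def fac (i x : Q) : MonoidAlgebra K (Q → M) :=
  if x = i then 1 - zCoord K M Q x else zCoord K M Q x

/-- orthogonal idempotents -/
noncomputable def eps (i : Q) : MonoidAlgebra K (Q → M) := ∏ x, fac K M Q i x

variable {K M} in
lemma eps_mul_self (h : (Fintype.card M : K) ≠ 0) (i : Q) :
    eps K M Q i * eps K M Q i = eps K M Q i := by
  unfold eps
  rw [← Finset.prod_mul_distrib]
  refine Finset.prod_congr rfl fun x _ => ?_
  unfold fac
  split_ifs
  · have := zCoord_mul_self Q h x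
    linear_combination this
  · exact zCoord_mul_self Q h x

variable {K M} in
lemma eps_mul_eps (h : (Fintype.card M : K) ≠ 0) {i j : Q} (hij : i ≠ j) :
    eps K M Q i * eps K M Q j = 0 := by
  unfold eps
  rw [← Finset.prod_mul_distrib]
  refine Finset.prod_eq_zero (Finset.mem_univ i) ?_
  unfold fac
  rw [if_pos rfl, if_neg hij]
  have := zCoord_mul_self Q h i
  linear_combination -this

/-- The left translation on `Q → M`. -/
def shift (q : Q) : (Q → M) →* (Q → M) where
  toFun a := fun x => a (q⁻¹ * x)
  map_one' := rfl
  map_mul' _ _ := rfl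

lemma shift_sg (q i : Q) (m : M) : shift M Q q (sg M Q i m) = sg M Q (q * i) m := by
  funext x
  simp only [shift, sg, MonoidHom.coe_mk, OneHom.coe_mk, MonoidHom.mulSingle_apply, Pi.mulSingle_apply]
  by_cases hx : x = q * i
  · subst hx; simp
  · have : q⁻¹ * x ≠ i := fun h => hx (by rw [← h]; group)
    simp [hx, this]

lemma map_shift_zCoord (q i : Q) :
    mapDomainRingHom K (shift M Q q) (zCoord K M Q i) = zCoord K M Q (q * i) := by
  unfold zCoord
  rw [← RingHom.comp_apply, ← mapDomainRingHom_comp]
  congr 2
  ext m : 1
  exact shift_sg M Q q i m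

lemma map_shift_fac (q i x : Q) :
    mapDomainRingHom K (shift M Q q) (fac K M Q i x) = fac K M Q (q * i) (q * x) := by
  unfold fac
  by_cases hx : x = i
  · subst hx
    rw [if_pos rfl, if_pos rfl, map_sub, map_one, map_shift_zCoord]
  · have : q * x ≠ q * i := fun h => hx (mul_left_cancel h)
    rw [if_neg hx, if_neg this, map_shift_zCoord]

lemma map_shift_eps (q i : Q) :
    mapDomainRingHom K (shift M Q q) (eps K M Q i) = eps K M Q (q * i) := by
  unfold eps
  rw [map_prod]
  rw [← Equiv.prod_comp (Equiv.mulLeft q) (fun x => fac K M Q (q * i) x)]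
  refine Finset.prod_congr rfl fun x _ => ?_
  exact map_shift_fac K M Q q i x

/-- The base group inside the regular wreath product. -/
def baseInc : (Q → M) →* RegularWreathProduct M Q where
  toFun a := ⟨a, 1⟩
  map_one' := rfl
  map_mul' a b := by
    ext x <;> simp [RegularWreathProduct.mul_def]

lemma inl_mul_baseInc (q : Q) (a : Q → M) :
    (RegularWreathProduct.inl q : RegularWreathProduct M Q) * baseInc M Q a =
      baseInc M Q (shift M Q q a) * RegularWreathProduct.inl q := by
  ext x <;> simp [RegularWreathProduct.mul_def, baseInc, shift]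

/-- The group element `inl q` in the group algebra. -/
noncomputable def tau (q : Q) : MonoidAlgebra K (RegularWreathProduct M Q) :=
  single (RegularWreathProduct.inl q) 1

lemma tau_mul_tau (p q : Q) : tau K M Q p * tau K M Q q = tau K M Q (p * q) := by
  simp [tau, single_mul_single]

lemma tau_mul_base (q : Q) (x : MonoidAlgebra K (Q → M)) :
    tau K M Q q * mapDomainRingHom K (baseInc M Q) x =
      mapDomainRingHom K (baseInc M Q) (mapDomainRingHom K (shift M Q q) x) * tau K M Q q := by
  induction x using MonoidAlgebra.induction_linear with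
  | zero => simp
  | add x y hx hy => simp only [map_add, mul_add, add_mul, hx, hy]
  | single a r =>
    simp [tau, single_mul_single, inl_mul_baseInc]

/-- Matrix units. -/
noncomputable def unitE (i j : Q) : MonoidAlgebra K (RegularWreathProduct M Q) :=
  mapDomainRingHom K (baseInc M Q) (eps K M Q i) * tau K M Q (i * j⁻¹)

variable {K M} in
lemma unitE_mul (h : (Fintype.card M : K) ≠ 0) (i j k l : Q) :
    unitE K M Q i j * unitE K M Q k l = if j = k then unitE K M Q i l else 0 := by
  unfold unitE
  calc _ = mapDomainRingHom K (baseInc M Q) (eps K M Q i) *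
        (tau K M Q (i * j⁻¹) * mapDomainRingHom K (baseInc M Q) (eps K M Q k)) *
        tau K M Q (k * l⁻¹) := by noncomm_ring
    _ = mapDomainRingHom K (baseInc M Q) (eps K M Q i * eps K M Q (i * j⁻¹ * k)) *
        tau K M Q (i * j⁻¹ * (k * l⁻¹)) := by
      rw [tau_mul_base, map_shift_eps, map_mul, ← tau_mul_tau K M Q (i * j⁻¹) (k * l⁻¹)]
      simp only [mul_assoc]
    _ = _ := by
      split_ifs with hjk
      · subst hjk
        rw [show i * j⁻¹ * j = i by group, eps_mul_self Q h, show i * j⁻¹ * (j * l⁻¹) = i * l⁻¹ by group]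
      · have : i ≠ i * j⁻¹ * k := by
          intro hh
          apply hjk
          have : 1 = j⁻¹ * k := by
            have h2 : i * 1 = i * (j⁻¹ * k) := by rw [mul_one, ← mul_assoc]; exact hh
            exact mul_left_cancel h2
          calc j = j * 1 := (mul_one j).symm
            _ = j * (j⁻¹ * k) := by rw [← this]
            _ = k := by group
        rw [eps_mul_eps Q h this]
        simp

/-- Coordinate evaluation. -/
def evalC (i : Q) : (Q → M) →* M := Pi.evalMonoidHom (fun _ => M) i

lemma evalC_sg (i j : Q) (m : M) : evalC M Q i (sg M Q j m) = if i = j then m else 1 := by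
  simp only [evalC, sg, Pi.evalMonoidHom_apply, MonoidHom.mulSingle_apply, Pi.mulSingle_apply]

variable {K M} in
lemma map_evalC_zCoord (h : (Fintype.card M : K) ≠ 0) (i j : Q) :
    mapDomainRingHom K (evalC M Q i) (zCoord K M Q j) = if i = j then zBase K M else 1 := by
  unfold zCoord
  rw [← RingHom.comp_apply, ← mapDomainRingHom_comp]
  by_cases hij : i = j
  · subst hij
    have : (evalC M Q i).comp (sg M Q i) = MonoidHom.id M := by
      ext m
      simp [evalC_sg]
    rw [this, if_pos rfl, mapDomainRingHom_id]
    rfl
  · have : (evalC M Q i).comp (sg M Q j) = 1 := by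
      ext m
      simp [evalC_sg, hij]
    rw [this, if_neg hij]
    simp only [zBase, map_sum]
    simp only [mapDomainRingHom_apply, mapDomain_single, MonoidHom.one_apply]
    rw [Finset.sum_const, Finset.card_univ, smul_single, nsmul_eq_mul, one_def]
    congr 1
    field_simp

variable {K M} in
lemma map_evalC_eps (h : (Fintype.card M : K) ≠ 0) (i : Q) :
    mapDomainRingHom K (evalC M Q i) (eps K M Q i) = 1 - zBase K M := by
  unfold eps
  rw [map_prod, Finset.prod_eq_single i]
  · simp only [fac, if_pos, map_sub, map_one, map_evalC_zCoord Q h]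
  · intro x _ hx
    simp only [fac, if_neg hx, map_evalC_zCoord Q h, if_neg (Ne.symm hx)]
  · simp

variable {K M} in
lemma one_sub_zBase_ne_zero (h : (Fintype.card M : K) ≠ 0) [Nontrivial M] :
    (1 : MonoidAlgebra K M) - zBase K M ≠ 0 := by
  classical
  obtain ⟨m, hm⟩ := exists_ne (1 : M)
  intro h0
  have h1 := congrArg (fun x : MonoidAlgebra K M => x.coeff m) h0
  simp only [coeff_sub, Finsupp.coe_sub, Pi.sub_apply] at h1
  have h2 : (zBase K M).coeff m = (Fintype.card M : K)⁻¹ := by
    unfold zBase
    simp [Finsupp.finset_sum_apply, Finsupp.single_apply]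
  have h3 : (1 : MonoidAlgebra K M).coeff m = 0 := by
    simp [one_def, Finsupp.single_apply, hm.symm]
  rw [h2, h3] at h1
  simp at h1
  exact h h1

variable {K M} in
lemma eps_ne_zero (h : (Fintype.card M : K) ≠ 0) [Nontrivial M] (i : Q) : eps K M Q i ≠ 0 := by
  intro h0
  have := map_evalC_eps Q h i
  rw [h0, map_zero] at this
  exact one_sub_zBase_ne_zero h this.symm

lemma baseInc_injective : Function.Injective (baseInc M Q) := by
  intro a b hab
  exact congrArg RegularWreathProduct.left hab

variable {K M} in
lemma unitE_self_ne_zero (h : (Fintype.card M : K) ≠ 0) [Nontrivial M] (i : Q) :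
    unitE K M Q i i ≠ 0 := by
  unfold unitE
  have h1 : i * i⁻¹ = 1 := mul_inv_cancel i
  rw [h1]
  have h2 : tau K M Q (1 : Q) = 1 := by
    simp [tau, one_def]
  rw [h2, mul_one]
  intro h0
  apply eps_ne_zero Q h i
  apply mapDomain_injective (baseInc_injective M Q)
  simpa using h0

end MatrixUnits

end Vale.Agent.P194
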