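import Mathlib

set_option linter.unusedSectionVars false

/-! Regular representation embeddings: `K[G × Γ]` into matrices over `K[G]`, and
`E[G]` into matrices over `F[G]` for a finite field extension `E / F`. -/

namespace Vale.Agent.P194

open MonoidAlgebra Finset

section Regular

variable {K : Type*} [Field K] {G Γ : Type*} [Group G] [Group Γ] [Fintype Γ] [DecidableEq Γ]

variable (K G Γ) in
/-- The regular representation of `G × Γ` on `K[G]^Γ`. -/
noncomputable def permRep : G × Γ →* Matrix Γ Γ (MonoidAlgebra K G) where
  toFun p := Matrix.of fun a b => if a = p.2 * b then single p.1 1 else 0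
  map_one' := by
    ext a b
    by_cases h : a = b
    · subst h; simp [one_def]
    · simp [h]
  map_mul' p q := by
    ext a b
    simp only [Prod.snd_mul, Prod.fst_mul, Matrix.of_apply, Matrix.mul_apply]
    rw [Finset.sum_eq_single (q.2 * b)]
    · simp [mul_assoc, single_mul_single]
    · intro c _ hc
      simp [hc]
    · simp

variable (K G Γ) in
/-- The regular representation of `K[G × Γ]`. -/
noncomputable def regHom : MonoidAlgebra K (G × Γ) →+* Matrix Γ Γ (MonoidAlgebra K G) :=
  liftNCRingHom (algebraMap K (Matrix Γ Γ (MonoidAlgebra K G))) (permRep K G Γ)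
    (fun x y => (show Commute _ _ from Algebra.commutes x (permRep K G Γ y)))

lemma regHom_single (p : G × Γ) (r : K) :
    regHom K G Γ (single p r) = algebraMap K (Matrix Γ Γ (MonoidAlgebra K G)) r * permRep K G Γ p :=
  liftNCRingHom_single _ _ _ _ _

lemma regHom_coeff [DecidableEq G] (x : MonoidAlgebra K (G × Γ)) (a : Γ) (g : G) :
    ((regHom K G Γ x) a 1).coeff g = x.coeff (g, a) := by
  induction x using MonoidAlgebra.induction_linear with
  | zero => simp
  | add x y hx hy => simp [hx, hy]
  | single p r =>
    obtain ⟨g', γ⟩ := p
    rw [regHom_single, Algebra.algebraMap_eq_smul_one, smul_mul_assoc, one_mul]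
    simp only [Matrix.smul_apply, permRep, MonoidHom.coe_mk, OneHom.coe_mk, Matrix.of_apply,
      mul_one, coeff_smul, Finsupp.smul_apply, coeff_single, Finsupp.single_apply, Prod.mk.injEq]
    by_cases h1 : a = γ
    · subst h1
      by_cases h2 : g' = g
      · subst h2; simp
      · simp [h2]
    · have : ¬ γ = a := fun h => h1 h.symm
      simp [h1, this]

lemma regHom_injective : Function.Injective (regHom K G Γ) := by
  classical
  intro x y h
  ext ⟨g, a⟩
  rw [← regHom_coeff, ← regHom_coeff, h]

theorem df_prod_of_stablyFinite [IsStablyFiniteRing (MonoidAlgebra K G)] :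
    IsDedekindFiniteMonoid (MonoidAlgebra K (G × Γ)) :=
  IsDedekindFiniteMonoid.of_injective (regHom K G Γ) regHom_injective

end Regular

section FieldExt

variable {F E : Type*} [Field F] [Field E] [Algebra F E] {G : Type*} [Group G]
  {ι : Type*} [Fintype ι] [DecidableEq ι] (b : Module.Basis ι F E)

variable (G) in
/-- `E → M_d(F) → M_d(F[G])`. -/
noncomputable def coeffHom : E →+* Matrix ι ι (MonoidAlgebra F G) :=
  ((algebraMap F (MonoidAlgebra F G)).mapMatrix).comp (Algebra.leftMulMatrix b).toRingHom

variable (F ι) in
/-- Scalar matrices on group elements. -/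
noncomputable def scalarRep : G →* Matrix ι ι (MonoidAlgebra F G) :=
  ((Matrix.scalar ι : MonoidAlgebra F G →+* Matrix ι ι (MonoidAlgebra F G)) :
      MonoidAlgebra F G →* Matrix ι ι (MonoidAlgebra F G)).comp (MonoidAlgebra.of F G)

lemma coeffHom_apply (x : E) (i j : ι) :
    coeffHom G b x i j = algebraMap F (MonoidAlgebra F G) (Algebra.leftMulMatrix b x i j) := rfl

lemma scalarRep_apply (g : G) :
    scalarRep F ι g = Matrix.scalar ι (single g (1 : F)) := rfl

lemma coeffHom_comm (x : E) (g : G) : Commute (coeffHom G b x) (scalarRep F ι g) := by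
  ext1 i j
  rw [scalarRep_apply]
  simp only [Matrix.scalar_apply, Matrix.mul_diagonal, Matrix.diagonal_mul, coeffHom_apply]
  exact Algebra.commutes _ _

/-- The embedding `E[G] → M_d(F[G])`. -/
noncomputable def extHom : MonoidAlgebra E G →+* Matrix ι ι (MonoidAlgebra F G) :=
  liftNCRingHom (coeffHom G b) (scalarRep F ι) (coeffHom_comm b)

lemma extHom_single (g : G) (r : E) :
    extHom b (single g r) = coeffHom G b r * scalarRep F ι g :=
  liftNCRingHom_single _ _ _ _ _

lemma extHom_coeff [DecidableEq G] (x : MonoidAlgebra E G) (i j : ι) (g : G) :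
    ((extHom b x) i j).coeff g = Algebra.leftMulMatrix b (x.coeff g) i j := by
  induction x using MonoidAlgebra.induction_linear with
  | zero => simp
  | add x y hx hy => simp [hx, hy]
  | single g' r =>
    rw [extHom_single, scalarRep_apply]
    simp only [Matrix.scalar_apply, Matrix.mul_diagonal, coeffHom_apply]
    rw [MonoidAlgebra.coe_algebraMap]
    simp only [Function.comp_apply, Algebra.algebraMap_self, RingHom.id_apply]
    rw [single_mul_single, one_mul, mul_one]
    simp only [coeff_single, Finsupp.single_apply]
    by_cases h : g' = g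
    · subst h; simp
    · simp [h]

lemma extHom_injective : Function.Injective (extHom (G := G) b) := by
  classical
  intro x y h
  ext g
  apply Algebra.leftMulMatrix_injective b
  ext i j
  have := congrArg (fun z => ((z i j).coeff g)) h
  simpa only [extHom_coeff] using this

end FieldExt

end Vale.Agent.P194
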